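import Vale.Agent.P154B7.Defs

/-!
# P154 bridge: combinatorics of labelled trees
-/

namespace Vale.Agent.P154B7

open Vale.Agent.P154

variable {q : ℕ}

/-- membership in the tree. -/
def InT (N : List ℕ → ℕ) (v : List ℕ) : Prop := ∀ c u, c :: u <:+ v → c < N u

theorem inT_cons {N : List ℕ → ℕ} {c : ℕ} {u : List ℕ} :
    InT N (c :: u) ↔ InT N u ∧ c < N u := by
  constructor
  · intro h
    exact ⟨fun c' u' h' => h c' u' (h'.trans (List.suffix_cons c u)), h c u List.suffix_rfl⟩
  · rintro ⟨h1, h2⟩ c' u' h'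
    rcases List.suffix_cons_iff.1 h' with h3 | h3
    · obtain ⟨rfl, rfl⟩ := List.cons.inj h3
      exact h2
    · exact h1 c' u' h3

/-- the `c`-th child. -/
def child {N : List ℕ → ℕ} (u : Vert N) (c : Fin (N u.1)) : Vert N :=
  ⟨c :: u.1, inT_cons.2 ⟨u.2, c.2⟩⟩

theorem adj_iff {N : List ℕ → ℕ} {u v : Vert N} :
    (tree N).Adj u v ↔ (∃ c, v.1 = c :: u.1) ∨ ∃ c, u.1 = c :: v.1 := by
  rw [tree, SimpleGraph.fromRel_adj]
  refine ⟨fun h => h.2, fun h => ⟨?_, h⟩⟩
  rintro rfl
  rcases h with ⟨c, h⟩ | ⟨c, h⟩ <;> exact List.cons_ne_self _ _ h.symm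

theorem exists_walk' {N : List ℕ → ℕ} (l : List ℕ) : ∀ v : Vert N, v.1 = l →
    ∃ w : (tree N).Walk (root N) v, w.length = l.length := by
  induction l with
  | nil =>
    intro v hv
    obtain rfl : v = root N := Subtype.ext hv
    exact ⟨SimpleGraph.Walk.nil, rfl⟩
  | cons c u ih =>
    intro v hv
    have h : InT N (c :: u) := hv ▸ v.2
    let u' : Vert N := ⟨u, (inT_cons.1 h).1⟩
    obtain ⟨w, hw⟩ := ih u' rfl
    have ha : (tree N).Adj u' v := adj_iff.2 (Or.inl ⟨c, hv⟩)
    refine ⟨w.concat ha, ?_⟩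
    rw [SimpleGraph.Walk.length_concat, hw, List.length_cons]

theorem exists_walk {N : List ℕ → ℕ} (v : Vert N) :
    ∃ w : (tree N).Walk (root N) v, w.length = v.1.length := exists_walk' v.1 v rfl

theorem length_le_walk {N : List ℕ → ℕ} {u v : Vert N} (w : (tree N).Walk u v) :
    v.1.length ≤ u.1.length + w.length := by
  induction w with
  | nil => simp
  | cons h w ih =>
    rw [SimpleGraph.Walk.length_cons]
    rcases adj_iff.1 h with ⟨c, h⟩ | ⟨c, h⟩
    · rw [h, List.length_cons] at ih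
      omega
    · rw [h, List.length_cons]
      omega

theorem dist_root {N : List ℕ → ℕ} (v : Vert N) : (tree N).dist (root N) v = v.1.length := by
  obtain ⟨w, hw⟩ := exists_walk v
  refine le_antisymm ((SimpleGraph.dist_le w).trans hw.le) ?_
  obtain ⟨w', hw'⟩ := w.reachable.exists_walk_length_eq_dist
  have h := length_le_walk w'
  rw [hw'] at h
  have h0 : (root N).1.length = 0 := rfl
  rwa [h0, zero_add] at h

theorem iso_length_le {N N' : List ℕ → ℕ} (e : tree N ≃g tree N') (he : e (root N) = root N')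
    (v : Vert N) : (e v).1.length ≤ v.1.length := by
  obtain ⟨w, hw⟩ := exists_walk v
  have h := length_le_walk (w.map e.toHom)
  rw [SimpleGraph.Walk.length_map, hw] at h
  have h1 : (e.toHom (root N)).1.length = 0 := by
    change (e (root N)).1.length = 0
    rw [he]
    rfl
  rw [h1, zero_add] at h
  exact h

theorem symm_root {N N' : List ℕ → ℕ} (e : tree N ≃g tree N') (he : e (root N) = root N') :
    e.symm (root N') = root N := by
  rw [← he]
  exact e.symm_apply_apply _

theorem iso_length {N N' : List ℕ → ℕ} (e : tree N ≃g tree N') (he : e (root N) = root N')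
    (v : Vert N) : (e v).1.length = v.1.length := by
  refine le_antisymm (iso_length_le e he v) ?_
  have h := iso_length_le e.symm (symm_root e he) (e v)
  rwa [e.symm_apply_apply] at h

theorem iso_child {N N' : List ℕ → ℕ} (e : tree N ≃g tree N') (he : e (root N) = root N')
    (u : Vert N) (c : Fin (N u.1)) : ∃ c' : Fin (N' (e u).1), e (child u c) = child (e u) c' := by
  have h : (tree N').Adj (e u) (e (child u c)) := e.map_adj_iff.2 (adj_iff.2 (Or.inl ⟨c, rfl⟩))
  have h1 := iso_length e he u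
  have h2 := iso_length e he (child u c)
  rcases adj_iff.1 h with ⟨c', h⟩ | ⟨c', h⟩
  · have h3 : InT N' (c' :: (e u).1) := h ▸ (e (child u c)).2
    exact ⟨⟨c', (inT_cons.1 h3).2⟩, Subtype.ext h⟩
  · exfalso
    rw [h, List.length_cons, h2] at h1
    have h4 : (child u c).1.length = u.1.length + 1 := rfl
    omega

theorem child_inj {N : List ℕ → ℕ} (u : Vert N) : Function.Injective (child u) := fun _ _ h =>
  Fin.ext (List.cons.inj (congrArg Subtype.val h)).1

/-- the subtree of `u` cut at depth `n`. -/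
def cut (N : List ℕ → ℕ) : (n : ℕ) → List ℕ → Tree n
  | 0, _ => ()
  | n + 1, u => ⟨N u, fun c => cut N n (c :: u)⟩

/-- the spins of the descendants of `u` at depth `n`. -/
def obs (N : List ℕ → ℕ) (s : List ℕ → Fin q) : (n : ℕ) → (u : List ℕ) → Spins q n (cut N n u)
  | 0, u => s u
  | n + 1, u => fun c => obs N s n (c :: u)

theorem lik_zero (lam : ℝ) (N : List ℕ → ℕ) (s : List ℕ → Fin q) (u : List ℕ) (i : Fin q) :
    lik q lam 0 (cut N 0 u) i (obs N s 0 u) = if i = s u then 1 else 0 := rfl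

theorem lik_succ (lam : ℝ) (N : List ℕ → ℕ) (s : List ℕ → Fin q) (n : ℕ) (u : List ℕ)
    (i : Fin q) : lik q lam (n + 1) (cut N (n + 1) u) i (obs N s (n + 1) u) =
      ∏ c : Fin (N u), ∑ j : Fin q, potts q lam i j *
        lik q lam n (cut N n (c :: u)) j (obs N s n (c :: u)) := rfl

/-- the likelihood does not depend on the labelling. -/
theorem lik_iso (lam : ℝ) {n : ℕ} {N N' : List ℕ → ℕ} {s s' : List ℕ → Fin q}
    (e : tree N ≃g tree N') (he : e (root N) = root N')
    (hs : ∀ v : Vert N, v.1.length = n → s' (e v).1 = s v.1) (m : ℕ) :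
    ∀ (u : Vert N) (i : Fin q), u.1.length + m = n →
      lik q lam m (cut N m u.1) i (obs N s m u.1) =
        lik q lam m (cut N' m (e u).1) i (obs N' s' m (e u).1) := by
  induction m with
  | zero =>
    intro u i h
    rw [lik_zero, lik_zero, hs u h]
  | succ m ih =>
    intro u i h
    rw [lik_succ, lik_succ]
    choose f hf using iso_child e he u
    refine Fintype.prod_bijective f ⟨fun c c' hc => ?_, fun c' => ?_⟩ _ _ fun c => ?_
    · refine child_inj u (e.injective ?_)
      rw [hf, hf, hc]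
    · obtain ⟨c, hc⟩ := iso_child e.symm (symm_root e he) (e u) c'
      have h1 : (e.symm (child (e u) c')).1 = (c : ℕ) :: u.1 := by
        rw [hc]
        exact congrArg (fun x : Vert N => (c : ℕ) :: x.1) (e.symm_apply_apply u)
      have h2 : (c : ℕ) < N u.1 := (inT_cons.1 (h1 ▸ (e.symm (child (e u) c')).2)).2
      refine ⟨⟨c, h2⟩, child_inj (e u) ?_⟩
      rw [← hf, ← e.apply_symm_apply (child (e u) c')]
      congr 1
      exact (Subtype.ext h1).symm
    · refine Finset.sum_congr rfl fun j _ => ?_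
      have h3 := ih (child u c) j (by
        change (u.1.length + 1) + m = n
        omega)
      rw [hf] at h3
      exact congrArg _ h3

/-- observed data. -/
abbrev Dat (q n : ℕ) : Type := Σ t : Tree n, Spins q n t

/-- the labelled observation, cut at level `n`. -/
def dat (n : ℕ) (x : (List ℕ → ℕ) × (List ℕ → Fin q)) : Dat q n :=
  ⟨cut x.1 n [], obs x.1 x.2 n []⟩

theorem post_same (lam : ℝ) {n : ℕ} {x y : (List ℕ → ℕ) × (List ℕ → Fin q)}
    (h : SameObs q n x y) (i : Fin q) :
    post q lam n (dat n x).1 (dat n x).2 i = post q lam n (dat n y).1 (dat n y).2 i := by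
  obtain ⟨e, he, hs⟩ := h
  have key : ∀ j, lik q lam n (dat n x).1 j (dat n x).2 = lik q lam n (dat n y).1 j (dat n y).2 := by
    intro j
    have h1 := lik_iso lam e he (fun v hv => hs v ((dist_root v).trans hv)) n (root x.1) j
      (zero_add n)
    rw [he] at h1
    exact h1
  simp only [post, evid, key]

/-- the subtree of `u` cut at depth `n` is `t`. -/
def MT (N : List ℕ → ℕ) : (n : ℕ) → List ℕ → Tree n → Prop
  | 0, _, _ => True
  | n + 1, u, ⟨k, t⟩ => N u = k ∧ ∀ c : Fin k, MT N n (c :: u) (t c)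

/-- the spins at the leaves of `t`, planted at `u`, are `η`. -/
def MS (s : List ℕ → Fin q) : (n : ℕ) → List ℕ → (t : Tree n) → Spins q n t → Prop
  | 0, u, _, η => s u = η
  | n + 1, u, ⟨k, t⟩, η => ∀ c : Fin k, MS s n (c :: u) (t c) (η c)

theorem match_iff (N : List ℕ → ℕ) (s : List ℕ → Fin q) (n : ℕ) :
    ∀ (u : List ℕ) (t : Tree n) (η : Spins q n t),
      (⟨cut N n u, obs N s n u⟩ : Dat q n) = ⟨t, η⟩ ↔ MT N n u t ∧ MS s n u t η := by
  induction n with
  | zero =>
    intro u t η
    constructor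
    · intro h
      obtain ⟨h1, h2⟩ := Sigma.mk.inj h
      exact ⟨trivial, eq_of_heq h2⟩
    · rintro ⟨-, h⟩
      exact Sigma.ext rfl (heq_of_eq h)
  | succ n ih =>
    rintro u ⟨k, t⟩ η
    constructor
    · intro h
      obtain ⟨h1, h2⟩ := Sigma.mk.inj h
      obtain ⟨h3, h4⟩ := Sigma.mk.inj h1
      subst h3
      obtain rfl := eq_of_heq h4
      obtain rfl := eq_of_heq h2
      exact ⟨⟨rfl, fun c => ((ih _ _ _).1 rfl).1⟩, fun c => ((ih _ _ _).1 rfl).2⟩
    · rintro ⟨⟨h1, h2⟩, h3⟩
      subst h1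
      have h4 := fun c => (ih _ _ _).2 ⟨h2 c, h3 c⟩
      obtain rfl : (fun c : Fin (N u) => cut N n (c :: u)) = t :=
        funext fun c => (Sigma.mk.inj (h4 c)).1
      obtain rfl : (fun c : Fin (N u) => obs N s n (c :: u)) = η :=
        funext fun c => eq_of_heq (Sigma.mk.inj (h4 c)).2
      rfl

theorem dat_eq_iff {n : ℕ} (x : (List ℕ → ℕ) × (List ℕ → Fin q)) (d : Dat q n) :
    dat n x = d ↔ MT x.1 n [] d.1 ∧ MS x.2 n [] d.1 d.2 := match_iff x.1 x.2 n [] d.1 d.2

/-- two spin systems with the same observation agree on the level. -/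
theorem agree {N : List ℕ → ℕ} {s s' : List ℕ → Fin q} (n : ℕ) :
    ∀ (u : List ℕ) (t : Tree n) (η : Spins q n t), MT N n u t → MS s n u t η → MS s' n u t η →
      ∀ w : List ℕ, w.length = n → InT N (w ++ u) → s' (w ++ u) = s (w ++ u) := by
  induction n with
  | zero =>
    intro u t η _ h1 h2 w hw _
    obtain rfl := List.length_eq_zero_iff.1 hw
    exact Eq.trans h2 (Eq.symm h1)
  | succ n ih =>
    rintro u ⟨k, t⟩ η ⟨h0, h⟩ h1 h2 w hw hT
    obtain ⟨w', c, rfl⟩ : ∃ w' c, w = w' ++ [c] := by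
      rcases List.eq_nil_or_concat w with rfl | ⟨w', c, rfl⟩
      · simp at hw
      · exact ⟨w', c, List.concat_eq_append⟩
    have e : w' ++ [c] ++ u = w' ++ c :: u := by simp
    rw [e] at hT ⊢
    have hc : c < k := h0 ▸ hT c u (List.suffix_append w' (c :: u))
    exact ih (c :: u) (t ⟨c, hc⟩) (η ⟨c, hc⟩) (h ⟨c, hc⟩) (h1 ⟨c, hc⟩) (h2 ⟨c, hc⟩) w'
      (by simpa using hw) hT

theorem same_of_match {n : ℕ} {N : List ℕ → ℕ} {s s' : List ℕ → Fin q} {t : Tree n}
    {η : Spins q n t} (h : MT N n [] t) (h1 : MS s n [] t η) (h2 : MS s' n [] t η) :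
    SameObs q n (N, s) (N, s') := by
  refine ⟨SimpleGraph.Iso.refl, rfl, fun v hv => ?_⟩
  have h3 := agree n [] t η h h1 h2 v.1 ((dist_root v).symm.trans hv)
    (by rw [List.append_nil]; exact v.2)
  rw [List.append_nil] at h3
  exact h3

theorem countable_tree (n : ℕ) : Countable (Tree n) := by
  induction n with
  | zero => exact inferInstanceAs (Countable Unit)
  | succ n ih => exact inferInstanceAs (Countable (Σ k : ℕ, (Fin k → Tree n)))

theorem countable_dat (q n : ℕ) : Countable (Dat q n) := by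
  have := countable_tree n
  infer_instance

end Vale.Agent.P154B7
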