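import Vale.Agent.P154B7.Prob

/-!
# P154 bridge: the posterior of the root spin as a conditional expectation
-/

namespace Vale.Agent.P154B7

open MeasureTheory ProbabilityTheory Vale.Agent.P154

universe u

variable {q : ℕ} {Ω : Type u} [MeasurableSpace Ω]

theorem hasSum_fib {δ : Type} [Countable δ] (μ : Measure Ω) {D : Ω → δ}
    (hD : ∀ d, MeasurableSet (D ⁻¹' {d})) {F : δ → ℝ} (hF : Integrable (fun ω => F (D ω)) μ) :
    HasSum (fun d => μ.real (D ⁻¹' {d}) * F d) (∫ ω, F (D ω) ∂μ) := by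
  have hU : ⋃ d, D ⁻¹' {d} = Set.univ := by
    ext ω
    simp
  have h := hasSum_integral_iUnion (μ := μ) (f := fun ω => F (D ω)) hD
    (fun d d' hd => Set.disjoint_left.2 fun ω h h' => hd (Eq.trans (Eq.symm h) h'))
    hF.integrableOn
  rw [hU, Measure.restrict_univ] at h
  refine h.congr_fun fun d => ?_
  rw [setIntegral_congr_fun (hD d) (g := fun _ => F d) fun ω hω => congrArg F hω,
    setIntegral_const, smul_eq_mul]

theorem meas_fib {δ : Type} [Countable δ] {D : Ω → δ}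
    (hD : ∀ d, MeasurableSet (D ⁻¹' {d})) (F : δ → ℝ) : Measurable fun ω => F (D ω) := by
  let : MeasurableSpace δ := ⊤
  exact measurable_from_top.comp (measurable_to_countable' hD)

theorem meas_dat (i : Fin q) (n : ℕ) (d : Dat q n) : MeasurableSet (dat n ⁻¹' {d}) := by
  have e : dat n ⁻¹' {d} = {N | MT N n [] d.1} ×ˢ {s | MS s n [] d.1 d.2} :=
    Set.ext fun x => dat_eq_iff x d
  rw [e]
  exact (meas_MT _ _ _).prod (meas_MS i _ _ _ _)

section Post

variable {lam : ℝ} {ρ : Measure (List ℕ → Fin q)} [IsProbabilityMeasure ρ]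

theorem root_le_evid (hρ : SpinLaw q lam ρ) (n : ℕ) (t : Tree n) (η : Spins q n t) (i : Fin q) :
    0 ≤ (1 / q : ℝ) * lik q lam n t i η ∧ (1 / q : ℝ) * lik q lam n t i η ≤ evid q lam n t η := by
  rw [← prob_root_MS hρ, ← prob_all_MS hρ i]
  exact ⟨measureReal_nonneg, measureReal_mono Set.inter_subset_right⟩

theorem evid_post (hρ : SpinLaw q lam ρ) (n : ℕ) (t : Tree n) (η : Spins q n t) (i : Fin q) :
    evid q lam n t η * post q lam n t η i = (1 / q : ℝ) * lik q lam n t i η := by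
  obtain ⟨h1, h2⟩ := root_le_evid hρ n t η i
  by_cases h : evid q lam n t η = 0
  · rw [h, zero_mul]
    exact le_antisymm h1 (h ▸ h2)
  · rw [post, mul_div_cancel₀ _ h]

theorem post_bound (hρ : SpinLaw q lam ρ) (n : ℕ) (t : Tree n) (η : Spins q n t) (i : Fin q) :
    |post q lam n t η i| ≤ 1 := by
  obtain ⟨h1, h2⟩ := root_le_evid hρ n t η i
  rw [post, abs_of_nonneg (div_nonneg h1 (h1.trans h2))]
  exact div_le_one_of_le₀ h2 (h1.trans h2)

end Post

variable {ν : ℕ → ℝ} {lam : ℝ} {P : Measure Ω} {N : List ℕ → Ω → ℕ} {σ : List ℕ → Ω → Fin q}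

/-- the pair (offspring numbers, spins). -/
def pair (N : List ℕ → Ω → ℕ) (σ : List ℕ → Ω → Fin q) (ω : Ω) :
    (List ℕ → ℕ) × (List ℕ → Fin q) := (fun v => N v ω, fun v => σ v ω)

namespace IsBroadcast

theorem measN' (h : IsBroadcast ν q lam P N σ) : Measurable fun ω v => N v ω :=
  measurable_pi_lambda _ h.measN

theorem measS' (h : IsBroadcast ν q lam P N σ) : Measurable fun ω v => σ v ω :=
  measurable_pi_lambda _ h.measS

theorem measP (h : IsBroadcast ν q lam P N σ) : Measurable (pair N σ) := h.measN'.prodMk h.measS'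

theorem probMap (h : IsBroadcast ν q lam P N σ) :
    IsProbabilityMeasure (P.map fun ω v => σ v ω) :=
  have := h.prob
  Measure.isProbabilityMeasure_map h.measS'.aemeasurable

theorem spinLaw (h : IsBroadcast ν q lam P N σ) : SpinLaw q lam (P.map fun ω v => σ v ω) := by
  intro D hD a
  rw [map_measureReal_apply h.measS' (meas_cyl D a)]
  exact h.spins D hD a

theorem prob_MT (h : IsBroadcast ν q lam P N σ) (n : ℕ) (t : Tree n) :
    P.real ((fun ω v => N v ω) ⁻¹' {M | MT M n [] t}) = treeProb ν n t := by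
  obtain ⟨S, k, -, h1, h2⟩ := MT_cyl ν n [] t
  have e : (fun ω v => N v ω) ⁻¹' {M | MT M n [] t} = ⋂ v ∈ S, N v ⁻¹' {k v} := by
    ext ω
    simp [h1]
  rw [e, h2, Measure.real, h.iid.measure_inter_preimage_eq_mul S
    fun v _ => measurableSet_singleton (k v), ENNReal.toReal_prod]
  exact Finset.prod_congr rfl fun v _ => h.law v (k v)

theorem prob_prod (h : IsBroadcast ν q lam P N σ) {B : Set (List ℕ → ℕ)}
    {C : Set (List ℕ → Fin q)} (hB : MeasurableSet B) (hC : MeasurableSet C) :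
    P.real (pair N σ ⁻¹' (B ×ˢ C)) =
      P.real ((fun ω v => N v ω) ⁻¹' B) * (P.map fun ω v => σ v ω).real C := by
  rw [map_measureReal_apply h.measS' hC, Measure.real, Measure.real, Measure.real,
    ← ENNReal.toReal_mul, ← h.indep.measure_inter_preimage_eq_mul B C hB hC]
  rfl

theorem prob_dat (h : IsBroadcast ν q lam P N σ) (i : Fin q) (n : ℕ) (d : Dat q n) :
    P.real ((fun ω => dat n (pair N σ ω)) ⁻¹' {d}) =
      treeProb ν n d.1 * evid q lam n d.1 d.2 := by
  have := h.probMap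
  have e : (fun ω => dat n (pair N σ ω)) ⁻¹' {d} =
      pair N σ ⁻¹' ({M | MT M n [] d.1} ×ˢ {s | MS s n [] d.1 d.2}) :=
    Set.ext fun ω => dat_eq_iff _ d
  rw [e, h.prob_prod (meas_MT _ _ _) (meas_MS i _ _ _ _), h.prob_MT, prob_all_MS h.spinLaw i]

theorem key (h : IsBroadcast ν q lam P N σ) {n : ℕ} {A : Set ((List ℕ → ℕ) × (List ℕ → Fin q))}
    (hA : MeasurableSet A) (hinv : ∀ x y, SameObs q n x y → x ∈ A → y ∈ A) (d : Dat q n)
    (i : Fin q) :
    P.real ((fun ω => dat n (pair N σ ω)) ⁻¹' {d} ∩ pair N σ ⁻¹' A) * post q lam n d.1 d.2 i =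
      P.real ((fun ω => dat n (pair N σ ω)) ⁻¹' {d} ∩
        (pair N σ ⁻¹' A ∩ {ω | σ [] ω = i})) := by
  have := h.probMap
  by_cases hs : ∃ s, MS s n [] d.1 d.2
  · obtain ⟨s₀, hs⟩ := hs
    have hB : MeasurableSet ({M | MT M n [] d.1} ∩ (fun M => (M, s₀)) ⁻¹' A) :=
      (meas_MT _ _ _).inter (measurable_prodMk_right hA)
    have e : ∀ x, (dat n x = d ∧ x ∈ A) ↔
        x ∈ ({M | MT M n [] d.1} ∩ (fun M => (M, s₀)) ⁻¹' A) ×ˢ {s | MS s n [] d.1 d.2} := by
      rintro ⟨M, s⟩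
      rw [dat_eq_iff]
      exact ⟨fun ⟨⟨h1, h2⟩, h3⟩ => ⟨⟨h1, hinv _ _ (same_of_match h1 h2 hs) h3⟩, h2⟩,
        fun ⟨⟨h1, h3⟩, h2⟩ => ⟨⟨h1, h2⟩, hinv _ _ (same_of_match h1 hs h2) h3⟩⟩
    have e1 : (fun ω => dat n (pair N σ ω)) ⁻¹' {d} ∩ pair N σ ⁻¹' A = pair N σ ⁻¹'
        (({M | MT M n [] d.1} ∩ (fun M => (M, s₀)) ⁻¹' A) ×ˢ {s | MS s n [] d.1 d.2}) :=
      Set.ext fun ω => e _
    have e2 : (fun ω => dat n (pair N σ ω)) ⁻¹' {d} ∩ (pair N σ ⁻¹' A ∩ {ω | σ [] ω = i}) =
        pair N σ ⁻¹' (({M | MT M n [] d.1} ∩ (fun M => (M, s₀)) ⁻¹' A) ×ˢ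
          ({s | s [] = i} ∩ {s | MS s n [] d.1 d.2})) := by
      rw [← Set.inter_assoc, e1]
      ext ω
      exact ⟨fun ⟨⟨h1, h2⟩, h3⟩ => ⟨h1, h3, h2⟩, fun ⟨h1, h3, h2⟩ => ⟨⟨h1, h2⟩, h3⟩⟩
    rw [e1, e2, h.prob_prod hB (meas_MS i _ _ _ _),
      h.prob_prod hB (((det_coord [] i).meas i).inter (meas_MS i _ _ _ _)),
      prob_all_MS h.spinLaw i, prob_root_MS h.spinLaw, mul_assoc, evid_post h.spinLaw]
  · have e : (fun ω => dat n (pair N σ ω)) ⁻¹' {d} = ∅ :=
      Set.eq_empty_of_forall_notMem fun ω hω => hs ⟨_, ((dat_eq_iff _ d).1 hω).2⟩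
    simp [e]

theorem condExp_eq (h : IsBroadcast ν q lam P N σ) (n : ℕ) (i : Fin q) :
    (fun ω => post q lam n (dat n (pair N σ ω)).1 (dat n (pair N σ ω)).2 i) =ᵐ[P]
      P⟦{ω | σ [] ω = i} | obsField N σ n⟧ := by
  have := h.prob
  have := h.probMap
  have := countable_dat q n
  have hq : Measurable (Quot.mk (SameObs q n)) := fun _ hs => hs
  have hm : obsField N σ n ≤ ‹MeasurableSpace Ω› := (hq.comp h.measP).comap_le
  have hD : ∀ d, MeasurableSet ((fun ω => dat n (pair N σ ω)) ⁻¹' {d}) := fun d =>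
    h.measP (meas_dat i n d)
  have hE : MeasurableSet {ω | σ [] ω = i} := h.measS [] (measurableSet_singleton i)
  have hg : Integrable
      (fun ω => post q lam n (dat n (pair N σ ω)).1 (dat n (pair N σ ω)).2 i) P :=
    Integrable.of_bound
      (meas_fib hD fun d => post q lam n d.1 d.2 i).aestronglyMeasurable 1
      (Filter.Eventually.of_forall fun ω => post_bound h.spinLaw _ _ _ _)
  refine ae_eq_condExp_of_forall_setIntegral_eq hm ((integrable_const 1).indicator hE)
    (fun s _ _ => hg.integrableOn) ?_ ?_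
  · rintro s ⟨C, hC, rfl⟩ -
    have hA : MeasurableSet (Quot.mk (SameObs q n) ⁻¹' C) := hq hC
    have hinv : ∀ x y, SameObs q n x y → x ∈ Quot.mk (SameObs q n) ⁻¹' C →
        y ∈ Quot.mk (SameObs q n) ⁻¹' C := fun x y hxy hx => by
      rw [Set.mem_preimage, ← Quot.sound hxy]
      exact hx
    change ∫ ω in pair N σ ⁻¹' (Quot.mk (SameObs q n) ⁻¹' C), _ ∂P =
      ∫ ω in pair N σ ⁻¹' (Quot.mk (SameObs q n) ⁻¹' C), _ ∂P
    have h1 := hasSum_fib (P.restrict (pair N σ ⁻¹' (Quot.mk (SameObs q n) ⁻¹' C))) hD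
      (F := fun d => post q lam n d.1 d.2 i) hg.integrableOn
    have h2 := hasSum_fib
      (P.restrict (pair N σ ⁻¹' (Quot.mk (SameObs q n) ⁻¹' C) ∩ {ω | σ [] ω = i})) hD
      (F := fun _ => 1) (integrable_const 1)
    rw [setIntegral_indicator hE]
    refine h1.unique ?_
    refine h2.congr_fun ?_
    intro d
    rw [measureReal_restrict_apply (hD d), measureReal_restrict_apply (hD d), mul_one,
      h.key hA hinv d i]
  · let G : Quot (SameObs q n) → ℝ := Quot.lift
      (fun x => post q lam n (dat n x).1 (dat n x).2 i) fun x y hxy => post_same lam hxy i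
    have hG : Measurable G := fun s hs =>
      meas_fib (meas_dat i n) (fun d => post q lam n d.1 d.2 i) hs
    have h3 : Measurable[obsField N σ n]
        fun ω => post q lam n (dat n (pair N σ ω)).1 (dat n (pair N σ ω)).2 i :=
      hG.comp (comap_measurable _)
    exact h3.stronglyMeasurable.aestronglyMeasurable

theorem adv_eq (h : IsBroadcast ν q lam P N σ) (i₀ : Fin q) : adv P N σ = advantage ν q lam := by
  funext n
  have := h.prob
  have := h.probMap
  have := countable_dat q n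
  have hD : ∀ d, MeasurableSet ((fun ω => dat n (pair N σ ω)) ⁻¹' {d}) := fun d =>
    h.measP (meas_dat i₀ n d)
  let F : Dat q n → ℝ := fun d => (1 / 2) * ∑ i : Fin q, |post q lam n d.1 d.2 i - 1 / q|
  have hF : Integrable (fun ω => F (dat n (pair N σ ω))) P := by
    refine Integrable.const_mul (integrable_finsetSum _ fun i _ => ?_) _
    refine Integrable.abs (Integrable.sub ?_ (integrable_const _))
    exact Integrable.of_bound
      (meas_fib hD fun d => post q lam n d.1 d.2 i).aestronglyMeasurable 1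
      (Filter.Eventually.of_forall fun ω => post_bound h.spinLaw _ _ _ _)
  have h1 := hasSum_fib P hD hF
  have h2 : adv P N σ n = ∫ ω, F (dat n (pair N σ ω)) ∂P := by
    refine integral_congr_ae ?_
    filter_upwards [ae_all_iff.2 fun i => h.condExp_eq n i] with ω hω
    simp only [F, hω]
  have h3 := h1.sigma fun t => hasSum_fintype _
  rw [h2, ← h3.tsum_eq, advantage]
  refine tsum_congr fun t => ?_
  rw [Finset.mul_sum]
  refine Finset.sum_congr rfl fun η _ => ?_
  rw [h.prob_dat i₀, mul_assoc]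

end IsBroadcast

end Vale.Agent.P154B7
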