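import Vale.Agent.P154.Defs

/-!
# P154: the broadcast process on a probability space

Vertices are finite words; the empty word is the root and `c :: u` is the `c`-th child of `u`.
-/

namespace Vale.Agent.P154B7

open MeasureTheory ProbabilityTheory Filter Topology Vale.Agent.P154

universe u

/-- The vertices of the tree in which the vertex `u` has the `N u` children `c :: u`, `c < N u`. -/
def Vert (N : List ℕ → ℕ) : Type := {v : List ℕ // ∀ c u, c :: u <:+ v → c < N u}

/-- The root. -/
def root (N : List ℕ → ℕ) : Vert N := ⟨[], fun _ _ h => absurd h (by simp)⟩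

/-- The tree as a graph: each vertex is joined to its children. -/
def tree (N : List ℕ → ℕ) : SimpleGraph (Vert N) :=
  SimpleGraph.fromRel fun u v => ∃ c, v.1 = c :: u.1

/-- Two pairs (offspring numbers, spins) look the same to the observer of the unlabelled tree and
of the spins on `L_n`: an isomorphism of the rooted trees matches the spins at distance `n` from
the root. -/
def SameObs (q n : ℕ) (x y : (List ℕ → ℕ) × (List ℕ → Fin q)) : Prop :=
  ∃ e : tree x.1 ≃g tree y.1, e (root x.1) = root y.1 ∧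
    ∀ v, (tree x.1).dist (root x.1) v = n → y.2 (e v).1 = x.2 v.1

/-- On the probability space `Ω` with measure `P` the offspring numbers `N v` are independent with law `ν`
and independent of the spins `σ`; the root spin is uniform and each edge independently passes the
spin of the parent to the child through the Potts channel. -/
structure IsBroadcast (ν : ℕ → ℝ) (q : ℕ) (lam : ℝ) {Ω : Type u} [MeasurableSpace Ω]
    (P : Measure Ω) (N : List ℕ → Ω → ℕ) (σ : List ℕ → Ω → Fin q) : Prop where
  prob : IsProbabilityMeasure P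
  measN : ∀ v, Measurable (N v)
  measS : ∀ v, Measurable (σ v)
  iid : iIndepFun N P
  law : ∀ v k, P.real {ω | N v ω = k} = ν k
  indep : IndepFun (fun ω v => N v ω) (fun ω v => σ v ω) P
  spins : ∀ D : Finset (List ℕ), (∀ v ∈ D, v.tail ∈ D) → ∀ a : List ℕ → Fin q,
    P.real {ω | ∀ v ∈ D, σ v ω = a v} =
      ∏ v ∈ D, if v = [] then (1 / q : ℝ) else potts q lam (a v.tail) (a v)

variable {q : ℕ} {Ω : Type u} [MeasurableSpace Ω]

/-- The σ-algebra generated by the observation: the class of the tree with its spins modulo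
`SameObs`. -/
abbrev obsField (N : List ℕ → Ω → ℕ) (σ : List ℕ → Ω → Fin q) (n : ℕ) : MeasurableSpace Ω :=
  MeasurableSpace.comap
    (fun ω => Quot.mk (SameObs q n) (fun v => N v ω, fun v => σ v ω)) inferInstance

/-- `a_n = E[(1/2) ∑_i |Pr(σ_ρ = i | T, σ_{L_n}) - 1/q|]`. -/
noncomputable def adv (P : Measure Ω) (N : List ℕ → Ω → ℕ) (σ : List ℕ → Ω → Fin q) (n : ℕ) : ℝ :=
  ∫ ω, (1 / 2) * ∑ i : Fin q, |(P⟦{ω | σ [] ω = i} | obsField N σ n⟧) ω - 1 / q| ∂P

/-- The model with offspring law `ν` exists, and in every realization reconstruction holds iff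
`d * lam ^ 2 > 1`, nonreconstruction iff `d * lam ^ 2 ≤ 1`. -/
def Threshold (ν : ℕ → ℝ) (q : ℕ) (lam d : ℝ) : Prop :=
  (∃ (Ω : Type) (_ : MeasurableSpace Ω) (P : Measure Ω) (N : List ℕ → Ω → ℕ)
    (σ : List ℕ → Ω → Fin q), IsBroadcast ν q lam P N σ) ∧
  ∀ (Ω : Type u) [MeasurableSpace Ω] (P : Measure Ω) (N : List ℕ → Ω → ℕ)
    (σ : List ℕ → Ω → Fin q), IsBroadcast ν q lam P N σ →
    ((∃ l : ℝ, 0 < l ∧ Tendsto (adv P N σ) atTop (𝓝 l)) ↔ 1 < d * lam ^ 2) ∧
    (Tendsto (adv P N σ) atTop (𝓝 0) ↔ d * lam ^ 2 ≤ 1)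

end Vale.Agent.P154B7
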