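import Vale.Agent.P154B7.Prob

/-!
# P154 bridge: the broadcast process exists
-/

namespace Vale.Agent.P154B7

open MeasureTheory ProbabilityTheory Vale.Agent.P154

theorem exists_law {β : Type} [Countable β] [MeasurableSpace β] [MeasurableSingletonClass β]
    {w : β → ℝ} (h0 : ∀ b, 0 ≤ w b) (h1 : HasSum w 1) :
    ∃ μ : Measure β, IsProbabilityMeasure μ ∧ ∀ b, μ.real {b} = w b := by
  have h2 : HasSum (fun b => ENNReal.ofReal (w b)) 1 := by
    rw [ENNReal.summable.hasSum_iff, ← ENNReal.ofReal_tsum_of_nonneg h0 h1.summable, h1.tsum_eq,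
      ENNReal.ofReal_one]
  let p : PMF β := ⟨_, h2⟩
  refine ⟨p.toMeasure, inferInstance, fun b => ?_⟩
  rw [Measure.real, PMF.toMeasure_apply_singleton _ _ (measurableSet_singleton b)]
  exact ENNReal.toReal_ofReal (h0 b)

variable {q : ℕ}

/-- spins built from the random choices `ξ`. -/
def sp (i₀ : Fin q) (ξ : List ℕ × Fin q → Fin q) : List ℕ → Fin q
  | [] => ξ ([], i₀)
  | c :: u => ξ (c :: u, sp i₀ ξ u)

theorem meas_sp (i₀ : Fin q) (v : List ℕ) : Measurable fun ξ => sp i₀ ξ v := by
  induction v with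
  | nil => exact measurable_pi_apply _
  | cons c u ih =>
    have h : Measurable fun x : (List ℕ × Fin q → Fin q) × Fin q => x.1 (c :: u, x.2) :=
      measurable_from_prod_countable_left fun i => measurable_pi_apply (c :: u, i)
    exact h.comp (measurable_id.prodMk ih)

theorem sp_iff (i₀ : Fin q) (ξ : List ℕ × Fin q → Fin q) {D : Finset (List ℕ)}
    (hD : ∀ v ∈ D, v.tail ∈ D) (a : List ℕ → Fin q) :
    (∀ v ∈ D, sp i₀ ξ v = a v) ↔ ∀ v ∈ D, ξ (v, if v = [] then i₀ else a v.tail) = a v := by
  constructor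
  · intro h v hv
    cases v with
    | nil => exact h [] hv
    | cons c u =>
      rw [if_neg (List.cons_ne_nil _ _), List.tail_cons, ← h u (hD _ hv)]
      exact h _ hv
  · intro h v hv
    induction v with
    | nil => exact h [] hv
    | cons c u ih =>
      have h1 := h _ hv
      rw [if_neg (List.cons_ne_nil _ _), List.tail_cons, ← ih (hD _ hv)] at h1
      exact h1

theorem exists_broadcast {ν : ℕ → ℝ} (h0 : ∀ k, 0 ≤ ν k) (h1 : HasSum ν 1) {lam : ℝ}
    (i₀ : Fin q) (hp : ∀ i j, 0 ≤ potts q lam i j) :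
    ∃ (Ω : Type) (_ : MeasurableSpace Ω) (P : Measure Ω) (N : List ℕ → Ω → ℕ)
      (σ : List ℕ → Ω → Fin q), IsBroadcast ν q lam P N σ := by
  classical
  have hq : (q : ℝ) ≠ 0 := Nat.cast_ne_zero.2 i₀.pos.ne'
  obtain ⟨μ, hμ, hμ'⟩ := exists_law h0 h1
  have hw : ∀ x : List ℕ × Fin q, ∃ m : Measure (Fin q), IsProbabilityMeasure m ∧
      ∀ j, m.real {j} = if x.1 = [] then (1 / q : ℝ) else potts q lam x.2 j := by
    intro x
    refine exists_law (fun j => ?_) ?_
    · split_ifs
      · positivity
      · exact hp _ _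
    · suffices h : (∑ j : Fin q, if x.1 = [] then (1 / q : ℝ) else potts q lam x.2 j) = 1 by
        have h2 := hasSum_fintype
          fun j : Fin q => if x.1 = [] then (1 / q : ℝ) else potts q lam x.2 j
        rwa [h] at h2
      split_ifs
      · simp [hq]
      · simp only [potts, Finset.sum_add_distrib, Finset.sum_ite_eq, Finset.mem_univ, if_true,
          Finset.sum_const, Finset.card_univ, Fintype.card_fin, nsmul_eq_mul]
        field_simp
        ring
  choose m hm hm' using hw
  let P₁ : Measure (List ℕ → ℕ) := Measure.infinitePi fun _ => μ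
  let P₂ : Measure (List ℕ × Fin q → Fin q) := Measure.infinitePi m
  have hf : MeasurePreserving Prod.fst (P₁.prod P₂) P₁ := measurePreserving_fst
  have hs : MeasurePreserving Prod.snd (P₁.prod P₂) P₂ := measurePreserving_snd
  refine ⟨(List ℕ → ℕ) × (List ℕ × Fin q → Fin q), inferInstance, P₁.prod P₂,
    fun v ω => ω.1 v, fun v ω => sp i₀ ω.2 v, inferInstance,
    fun v => (measurable_pi_apply v).comp measurable_fst,
    fun v => (meas_sp i₀ v).comp measurable_snd, ?_, fun v k => ?_, ?_, fun D hD a => ?_⟩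
  · have h2 : iIndepFun (fun (v : List ℕ) (M : List ℕ → ℕ) => M v) P₁ :=
      iIndepFun_infinitePi (X := fun _ k => k) fun _ => measurable_id
    rw [iIndepFun_iff_measure_inter_preimage_eq_mul] at h2 ⊢
    intro S B hB
    have h3 : ∀ v ∈ S, MeasurableSet ((fun M : List ℕ → ℕ => M v) ⁻¹' B v) := fun v hv =>
      measurable_pi_apply v (hB v hv)
    have h4 := hf.measure_preimage (Finset.measurableSet_biInter S h3).nullMeasurableSet
    rw [h2 S hB, Set.preimage_iInter₂] at h4
    refine h4.trans (Finset.prod_congr rfl fun v hv => ?_)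
    exact (hf.measure_preimage (h3 v hv).nullMeasurableSet).symm
  · have h3 : MeasurePreserving (fun ω : (List ℕ → ℕ) × (List ℕ × Fin q → Fin q) => ω.1 v)
        (P₁.prod P₂) μ := (measurePreserving_eval_infinitePi (fun _ => μ) v).comp hf
    rw [← hμ' k]
    exact congrArg ENNReal.toReal
      (h3.measure_preimage (measurableSet_singleton k).nullMeasurableSet)
  · exact indepFun_prod (X := fun M : List ℕ → ℕ => M) (Y := fun ξ v => sp i₀ ξ v) measurable_id
      (measurable_pi_lambda _ (meas_sp i₀))
  · let φ : List ℕ ↪ List ℕ × Fin q :=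
      ⟨fun v => (v, if v = [] then i₀ else a v.tail), fun _ _ h => congrArg Prod.fst h⟩
    have e : {ω : (List ℕ → ℕ) × (List ℕ × Fin q → Fin q) | ∀ v ∈ D, sp i₀ ω.2 v = a v} =
        Prod.snd ⁻¹' Set.pi (D.map φ : Finset _) fun x => {a x.1} := by
      ext ω
      rw [Set.mem_ofPred_eq, sp_iff i₀ ω.2 hD]
      simp only [Set.mem_preimage, Set.mem_pi, Finset.mem_coe, Finset.forall_mem_map,
        Set.mem_singleton_iff]
      rfl
    rw [e, Measure.real, hs.measure_preimage (MeasurableSet.pi (Finset.countable_toSet _)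
      fun x _ => measurableSet_singleton _).nullMeasurableSet,
      Measure.infinitePi_pi m fun x _ => measurableSet_singleton _, ENNReal.toReal_prod,
      Finset.prod_map]
    refine Finset.prod_congr rfl fun v _ => (hm' (φ v) (a v)).trans ?_
    change (if v = [] then _ else potts q lam (if v = [] then i₀ else a v.tail) (a v)) = _
    split_ifs <;> rfl

end Vale.Agent.P154B7
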