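import Vale.Agent.P154B7.Cond
import Vale.Agent.P154B7.Exist

/-!
# P154 bridge: transfer of the threshold
-/

namespace Vale.Agent.P154B7

open MeasureTheory Vale.Agent.P154

universe u

theorem threshold_of {ν : ℕ → ℝ} (h0 : ∀ k, 0 ≤ ν k) (h1 : HasSum ν 1) {q : ℕ} {lam d : ℝ}
    (i₀ : Fin q) (hp : ∀ i j, 0 ≤ potts q lam i j)
    (h : (Reconstruction ν q lam ↔ 1 < d * lam ^ 2) ∧
      (Nonreconstruction ν q lam ↔ d * lam ^ 2 ≤ 1)) : Threshold.{u} ν q lam d := by
  refine ⟨exists_broadcast h0 h1 i₀ hp, fun Ω _ P N σ hb => ?_⟩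
  rw [hb.adv_eq i₀]
  exact h

theorem potts3 {lam : ℝ} (h0 : -1 / 2 ≤ lam) (h1 : lam ≤ 1) (i j : Fin 3) :
    0 ≤ potts 3 lam i j := by
  unfold potts
  split_ifs <;> push_cast <;> linarith

theorem potts4 {lam : ℝ} (h0 : 0 ≤ lam) (h1 : lam ≤ 1) (i j : Fin 4) :
    0 ≤ potts 4 lam i j := by
  unfold potts
  split_ifs <;> push_cast <;> linarith

theorem reg0 (d k : ℕ) : 0 ≤ regularOffspring d k := by
  unfold regularOffspring
  split_ifs <;> norm_num

theorem reg1 (d : ℕ) : HasSum (regularOffspring d) 1 := by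
  have := hasSum_single (f := regularOffspring d) d (fun k hk => by simp [regularOffspring, hk])
  simpa [regularOffspring] using this

theorem poi0 {d : ℝ} (hd : 0 < d) (k : ℕ) : 0 ≤ poissonOffspring d k := by
  unfold poissonOffspring
  positivity

theorem poi1 (d : ℝ) : HasSum (poissonOffspring d) 1 := by
  have h := (NormedSpace.expSeries_div_hasSum_exp (𝔸 := ℝ) d).mul_left (Real.exp (-d))
  rw [← Real.exp_eq_exp_ℝ, ← Real.exp_add, neg_add_cancel, Real.exp_zero] at h
  refine h.congr_fun fun k => ?_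
  rw [poissonOffspring, mul_div_assoc]

end Vale.Agent.P154B7
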