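import Vale.Agent.P154B7.Comb

/-!
# P154 bridge: the laws of the cut tree and of the spins on its last level
-/

namespace Vale.Agent.P154B7

open MeasureTheory ProbabilityTheory Vale.Agent.P154

variable {q : ℕ}

theorem sib_eq {c c' : ℕ} {u v : List ℕ} (h : c :: u <:+ v) (h' : c' :: u <:+ v) : c = c' :=
  (List.cons.inj ((List.suffix_of_suffix_length_le h h' (by simp)).eq_of_length (by simp))).1

theorem not_cons_suffix (c : ℕ) (u : List ℕ) : ¬ c :: u <:+ u := fun h => by
  have := h.length_le
  simp at this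

/-- the event `MT` is a cylinder. -/
theorem MT_cyl (ν : ℕ → ℝ) (n : ℕ) : ∀ (u : List ℕ) (t : Tree n),
    ∃ (S : Finset (List ℕ)) (k : List ℕ → ℕ), (∀ v ∈ S, u <:+ v) ∧
      (∀ N, MT N n u t ↔ ∀ v ∈ S, N v = k v) ∧ treeProb ν n t = ∏ v ∈ S, ν (k v) := by
  classical
  induction n with
  | zero => exact fun u t => ⟨∅, fun _ => 0, by simp, fun N => by simp [MT], rfl⟩
  | succ n ih =>
    rintro u ⟨k, t⟩
    choose S kk h1 h2 h3 using fun c : Fin k => ih ((c : ℕ) :: u) (t c)
    have hne : ∀ c, u ∉ S c := fun c h => not_cons_suffix _ _ (h1 c u h)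
    have hdis : ∀ c c' v, v ∈ S c → v ∈ S c' → c = c' := fun c c' v h h' =>
      Fin.ext (sib_eq (h1 c v h) (h1 c' v h'))
    let K : List ℕ → ℕ := fun v => if v = u then k else ∑ c, if v ∈ S c then kk c v else 0
    have K0 : K u = k := if_pos rfl
    have K1 : ∀ c, ∀ v ∈ S c, K v = kk c v := by
      intro c v hv
      have hvu : v ≠ u := fun h => hne c (h ▸ hv)
      simp only [K, if_neg hvu]
      rw [Finset.sum_eq_single c, if_pos hv]
      · intro c' _ hc
        exact if_neg fun h => hc (hdis _ _ v h hv)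
      · simp
    refine ⟨insert u (Finset.univ.biUnion S), K, ?_, fun N => ?_, ?_⟩
    · intro v hv
      rcases Finset.mem_insert.1 hv with rfl | hv
      · exact List.suffix_rfl
      · obtain ⟨c, -, hc⟩ := Finset.mem_biUnion.1 hv
        exact (List.suffix_cons _ _).trans (h1 c v hc)
    · change (N u = k ∧ ∀ c : Fin k, MT N n ((c : ℕ) :: u) (t c)) ↔ _
      rw [Finset.forall_mem_insert, K0]
      refine and_congr Iff.rfl ⟨fun h v hv => ?_, fun h c => (h2 c N).2 fun v hv => ?_⟩
      · obtain ⟨c, -, hc⟩ := Finset.mem_biUnion.1 hv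
        rw [K1 c v hc]
        exact (h2 c N).1 (h c) v hc
      · rw [← K1 c v hv]
        exact h v (Finset.mem_biUnion.2 ⟨c, Finset.mem_univ _, hv⟩)
    · change ν k * ∏ c : Fin k, treeProb ν n (t c) = _
      rw [Finset.prod_insert (by simp [hne]), K0, Finset.prod_biUnion]
      · congr 1
        refine Finset.prod_congr rfl fun c _ => ?_
        rw [h3 c]
        exact Finset.prod_congr rfl fun v hv => by rw [K1 c v hv]
      · intro c _ c' _ hc
        exact Finset.disjoint_left.2 fun v h h' => hc (hdis _ _ v h h')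

theorem meas_cyl {β : Type*} [MeasurableSpace β] [MeasurableSingletonClass β]
    (S : Finset (List ℕ)) (k : List ℕ → β) :
    MeasurableSet {N : List ℕ → β | ∀ v ∈ S, N v = k v} := by
  have e : {N : List ℕ → β | ∀ v ∈ S, N v = k v} = ⋂ v ∈ S, (fun N => N v) ⁻¹' {k v} := by
    ext N
    simp
  rw [e]
  exact Finset.measurableSet_biInter _ fun v _ =>
    measurable_pi_apply v (measurableSet_singleton _)

theorem meas_MT (n : ℕ) (u : List ℕ) (t : Tree n) : MeasurableSet {N | MT N n u t} := by
  obtain ⟨S, k, -, h, -⟩ := MT_cyl (fun _ => 0) n u t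
  have e : {N | MT N n u t} = {N : List ℕ → ℕ | ∀ v ∈ S, N v = k v} := Set.ext h
  rw [e]
  exact meas_cyl S k

/-- the set `A` is determined by the coordinates in `S`. -/
def Det (S : Finset (List ℕ)) (A : Set (List ℕ → Fin q)) : Prop :=
  ∀ s s', (∀ v ∈ S, s v = s' v) → s ∈ A → s' ∈ A

theorem Det.mono {S S' : Finset (List ℕ)} {A : Set (List ℕ → Fin q)} (h : Det S A) (hS : S ⊆ S') :
    Det S' A := fun s s' h1 => h s s' fun v hv => h1 v (hS hv)

theorem Det.inter {S S' : Finset (List ℕ)} {A A' : Set (List ℕ → Fin q)} (h : Det S A)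
    (h' : Det S' A') : Det (S ∪ S') (A ∩ A') := fun s s' h1 h2 =>
  ⟨h s s' (fun v hv => h1 v (Finset.mem_union_left _ hv)) h2.1,
    h' s s' (fun v hv => h1 v (Finset.mem_union_right _ hv)) h2.2⟩

theorem det_coord (v : List ℕ) (j : Fin q) : Det {v} {s | s v = j} := fun _ _ h1 h2 =>
  (h1 v (Finset.mem_singleton_self v)).symm.trans h2

theorem MS_det (n : ℕ) : ∀ (u : List ℕ) (t : Tree n) (η : Spins q n t),
    ∃ V : Finset (List ℕ), (∀ v ∈ V, u <:+ v) ∧ Det V {s | MS s n u t η} := by
  classical
  induction n with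
  | zero =>
    intro u t η
    exact ⟨{u}, fun v hv => by rw [Finset.mem_singleton.1 hv], det_coord u η⟩
  | succ n ih =>
    rintro u ⟨k, t⟩ η
    choose V h1 h2 using fun c : Fin k => ih ((c : ℕ) :: u) (t c) (η c)
    refine ⟨Finset.univ.biUnion V, fun v hv => ?_, fun s s' h hs c => ?_⟩
    · obtain ⟨c, -, hc⟩ := Finset.mem_biUnion.1 hv
      exact (List.suffix_cons _ _).trans (h1 c v hc)
    · exact h2 c s s' (fun v hv => h v (Finset.mem_biUnion.2 ⟨c, Finset.mem_univ _, hv⟩)) (hs c)

/-- extension of a configuration on `D`. -/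
def ext (D : Finset (List ℕ)) (i : Fin q) (g : D → Fin q) (v : List ℕ) : Fin q :=
  if h : v ∈ D then g ⟨v, h⟩ else i

theorem fiber_eq (D : Finset (List ℕ)) (i : Fin q) (g : D → Fin q) :
    (fun (s : List ℕ → Fin q) (v : D) => s v) ⁻¹' {g} = {s | ∀ v ∈ D, s v = ext D i g v} := by
  ext s
  simp only [Set.mem_preimage, Set.mem_singleton_iff, Set.mem_ofPred_eq]
  constructor
  · rintro rfl v hv
    simp [ext, hv]
  · intro h
    funext v
    rw [h v v.2, ext, dif_pos v.2]

open Classical in
theorem det_eq {D : Finset (List ℕ)} {A : Set (List ℕ → Fin q)} (h : Det D A) (i : Fin q) :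
    A = (fun (s : List ℕ → Fin q) (v : D) => s v) ⁻¹'
      ((Finset.univ.filter fun g : D → Fin q => ext D i g ∈ A : Finset (D → Fin q)) :
        Set (D → Fin q)) := by
  ext s
  simp only [Set.mem_preimage, Finset.coe_filter, Finset.mem_univ, true_and, Set.mem_ofPred_eq]
  have e : ∀ v ∈ D, s v = ext D i (fun v : D => s v) v := fun v hv => by simp [ext, hv]
  exact ⟨h _ _ e, h _ _ fun v hv => (e v hv).symm⟩

theorem Det.meas {D : Finset (List ℕ)} {A : Set (List ℕ → Fin q)} (h : Det D A) (i : Fin q) :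
    MeasurableSet A := by
  rw [det_eq h i]
  exact (measurable_pi_lambda _ fun v : D => measurable_pi_apply (v : List ℕ))
    (Finset.measurableSet _)

theorem meas_MS (i : Fin q) (n : ℕ) (u : List ℕ) (t : Tree n) (η : Spins q n t) :
    MeasurableSet {s | MS s n u t η} := by
  obtain ⟨V, -, h⟩ := MS_det n u t η
  exact h.meas i

section Spin

variable {lam : ℝ} {ρ : Measure (List ℕ → Fin q)} [IsProbabilityMeasure ρ]

open Classical in
theorem det_sum {D : Finset (List ℕ)} {A : Set (List ℕ → Fin q)} (h : Det D A) (i : Fin q)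
    {B : Set (List ℕ → Fin q)} (hB : MeasurableSet B) :
    ρ.real (A ∩ B) = ∑ g ∈ Finset.univ.filter fun g : D → Fin q => ext D i g ∈ A,
      ρ.real ({s | ∀ v ∈ D, s v = ext D i g v} ∩ B) := by
  have h1 := sum_measureReal_preimage_singleton (μ := ρ.restrict B)
    (Finset.univ.filter fun g : D → Fin q => ext D i g ∈ A)
    (f := fun (s : List ℕ → Fin q) (v : D) => s v)
    (fun g _ => by rw [fiber_eq D i]; exact meas_cyl _ _)
  rw [← det_eq h i, measureReal_restrict_apply' hB] at h1
  rw [← h1]
  exact Finset.sum_congr rfl fun g _ => by rw [measureReal_restrict_apply' hB, fiber_eq D i]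

theorem split_coord {B : Set (List ℕ → Fin q)} (hB : MeasurableSet B) (v : List ℕ) :
    ρ.real B = ∑ j, ρ.real (B ∩ {s | s v = j}) := by
  have h1 := sum_measureReal_preimage_singleton (μ := ρ.restrict B) Finset.univ
    (f := fun s : List ℕ → Fin q => s v)
    (fun j _ => measurable_pi_apply v (measurableSet_singleton _))
  rw [Finset.coe_univ, Set.preimage_univ, measureReal_restrict_apply_univ] at h1
  rw [← h1]
  exact Finset.sum_congr rfl fun j _ => by
    rw [measureReal_restrict_apply' hB, Set.inter_comm]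
    rfl

/-- the product formula for the spins. -/
def SpinLaw (q : ℕ) (lam : ℝ) (ρ : Measure (List ℕ → Fin q)) : Prop :=
  ∀ D : Finset (List ℕ), (∀ v ∈ D, v.tail ∈ D) → ∀ a : List ℕ → Fin q,
    ρ.real {s | ∀ v ∈ D, s v = a v} =
      ∏ v ∈ D, if v = [] then (1 / q : ℝ) else potts q lam (a v.tail) (a v)

/-- the Markov property along one edge. -/
theorem one_step (hρ : SpinLaw q lam ρ) {S : Finset (List ℕ)} {A : Set (List ℕ → Fin q)}
    {c : ℕ} {u : List ℕ} (hS : ∀ v ∈ S, ¬ c :: u <:+ v) (hA : Det S A) {i : Fin q}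
    (hi : A ⊆ {s | s u = i}) (j : Fin q) :
    ρ.real (A ∩ {s | s (c :: u) = j}) = ρ.real A * potts q lam i j := by
  classical
  obtain ⟨D, hSD, hu, hcl, hc⟩ : ∃ D : Finset (List ℕ), S ⊆ D ∧ u ∈ D ∧
      (∀ v ∈ D, v.tail ∈ D) ∧ c :: u ∉ D := by
    have key : ∀ w, w ∈ (insert u S).biUnion (fun v => v.tails.toFinset) ↔
        ∃ v ∈ insert u S, w <:+ v := fun w => by
      simp only [Finset.mem_biUnion, List.mem_toFinset, List.mem_tails]
    refine ⟨(insert u S).biUnion fun v => v.tails.toFinset,
      fun v hv => (key v).2 ⟨v, Finset.mem_insert_of_mem hv, List.suffix_rfl⟩,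
      (key u).2 ⟨u, Finset.mem_insert_self _ _, List.suffix_rfl⟩, fun v hv => ?_, fun h => ?_⟩
    · obtain ⟨w, h1, h2⟩ := (key v).1 hv
      exact (key _).2 ⟨w, h1, (List.tail_suffix v).trans h2⟩
    · obtain ⟨w, h1, h2⟩ := (key _).1 h
      rcases Finset.mem_insert.1 h1 with rfl | h1
      · exact not_cons_suffix _ _ h2
      · exact hS w h1 h2
  have hD := hA.mono hSD
  have h1 := det_sum (ρ := ρ) hD i MeasurableSet.univ
  rw [Set.inter_univ] at h1
  rw [det_sum hD i ((det_coord (c :: u) j).meas i), h1, Finset.sum_mul]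
  refine Finset.sum_congr rfl fun g hg => ?_
  have hg' : ext D i g u = i := hi (Finset.mem_filter.1 hg).2
  have hup : ∀ v ∈ D, Function.update (ext D i g) (c :: u) j v = ext D i g v := fun v hv =>
    Function.update_of_ne (fun h : v = c :: u => hc (h ▸ hv)) _ _
  have e : {s : List ℕ → Fin q | ∀ v ∈ D, s v = ext D i g v} ∩ {s | s (c :: u) = j} =
      {s : List ℕ → Fin q | ∀ v ∈ insert (c :: u) D,
        s v = Function.update (ext D i g) (c :: u) j v} := by
    ext s
    simp only [Set.mem_inter_iff, Set.mem_ofPred_eq, Finset.forall_mem_insert, Function.update_self]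
    rw [and_comm]
    exact and_congr Iff.rfl (forall₂_congr fun v hv => by rw [hup v hv])
  rw [e, hρ, Set.inter_univ, hρ D hcl, Finset.prod_insert hc, if_neg (List.cons_ne_nil _ _),
    Function.update_self, List.tail_cons, hup u hu, hg', mul_comm]
  · congr 1
    exact Finset.prod_congr rfl fun v hv => by rw [hup v hv, hup _ (hcl v hv)]
  · intro v hv
    rcases Finset.mem_insert.1 hv with rfl | hv
    · exact Finset.mem_insert_of_mem hu
    · exact Finset.mem_insert_of_mem (hcl v hv)

theorem prob_MS (hρ : SpinLaw q lam ρ) (n : ℕ) :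
    ∀ (u : List ℕ) (t : Tree n) (η : Spins q n t) (i : Fin q) (S : Finset (List ℕ))
      (A : Set (List ℕ → Fin q)), (∀ v ∈ S, ∀ c, ¬ c :: u <:+ v) → Det S A →
      A ⊆ {s | s u = i} → ρ.real (A ∩ {s | MS s n u t η}) = ρ.real A * lik q lam n t i η := by
  classical
  induction n with
  | zero =>
    intro u t η i S A _ _ hi
    change ρ.real (A ∩ {s | s u = η}) = ρ.real A * if i = (show Fin q from η) then 1 else 0
    split_ifs with h
    · rw [mul_one, Set.inter_eq_left.2 (h ▸ hi)]
    · rw [mul_zero, Set.eq_empty_of_forall_notMem (s := A ∩ {s | s u = η})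
        fun s hs => h ((hi hs.1).symm.trans hs.2), measureReal_empty]
  | succ n ih =>
    rintro u ⟨k, t⟩ η i S A hS hA hi
    choose V h1 h2 using fun c : Fin k => MS_det n ((c : ℕ) :: u) (t c) (η c)
    have key : ∀ T : Finset (Fin k),
        ρ.real (A ∩ {s | ∀ c ∈ T, MS s n ((c : ℕ) :: u) (t c) (η c)}) =
          ρ.real A * ∏ c ∈ T, ∑ j : Fin q, potts q lam i j * lik q lam n (t c) j (η c) := by
      intro T
      induction T using Finset.induction_on with
      | empty => simp
      | insert c T hc ihT =>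
        set A' := A ∩ {s | ∀ c ∈ T, MS s n ((c : ℕ) :: u) (t c) (η c)} with hA'
        have hD : Det (S ∪ T.biUnion V) A' := hA.inter fun s s' h hs c' hc' =>
          h2 c' s s' (fun v hv => h v (Finset.mem_biUnion.2 ⟨c', hc', hv⟩)) (hs c' hc')
        have hS' : ∀ v ∈ S ∪ T.biUnion V, ¬ (c : ℕ) :: u <:+ v := by
          intro v hv h
          rcases Finset.mem_union.1 hv with hv | hv
          · exact hS v hv _ h
          · obtain ⟨c', h3, h4⟩ := Finset.mem_biUnion.1 hv
            exact hc (Fin.ext (sib_eq h (h1 c' v h4)) ▸ h3)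
        have e : A ∩ {s | ∀ c' ∈ insert c T, MS s n ((c' : ℕ) :: u) (t c') (η c')} =
            A' ∩ {s | MS s n ((c : ℕ) :: u) (t c) (η c)} := by
          ext s
          simp only [hA', Set.mem_inter_iff, Set.mem_ofPred_eq, Finset.forall_mem_insert]
          tauto
        rw [e, Finset.prod_insert hc, split_coord ((hD.meas i).inter (meas_MS i _ _ _ _)) (c :: u),
          mul_left_comm, ← ihT, Finset.sum_mul]
        refine Finset.sum_congr rfl fun j _ => ?_
        rw [Set.inter_right_comm, ih _ _ _ j (S ∪ T.biUnion V ∪ {(c : ℕ) :: u}) _ ?_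
          (hD.inter (det_coord _ j)) Set.inter_subset_right,
          one_step hρ hS' hD (Set.inter_subset_left.trans hi)]
        · ring
        · intro v hv c' h
          rcases Finset.mem_union.1 hv with hv | hv
          · exact hS' v hv ((List.suffix_cons _ _).trans h)
          · rw [Finset.mem_singleton.1 hv] at h
            exact not_cons_suffix _ _ h
    have h3 := key Finset.univ
    simp only [Finset.mem_univ, forall_true_left] at h3
    exact h3

theorem prob_root_MS (hρ : SpinLaw q lam ρ) (n : ℕ) (t : Tree n) (η : Spins q n t) (i : Fin q) :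
    ρ.real ({s | s [] = i} ∩ {s | MS s n [] t η}) = (1 / q : ℝ) * lik q lam n t i η := by
  rw [prob_MS hρ n [] t η i {[]} _ (fun v hv c h => ?_) (det_coord _ i) subset_rfl]
  · have h := hρ {[]} (by simp) fun _ => i
    simp only [Finset.mem_singleton, forall_eq, Finset.prod_singleton, if_true] at h
    rw [h]
  · rw [Finset.mem_singleton.1 hv] at h
    exact not_cons_suffix _ _ h

theorem prob_all_MS (hρ : SpinLaw q lam ρ) (i : Fin q) (n : ℕ) (t : Tree n) (η : Spins q n t) :
    ρ.real {s | MS s n [] t η} = evid q lam n t η := by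
  rw [split_coord (meas_MS i _ _ _ _) [], evid]
  exact Finset.sum_congr rfl fun j _ => by rw [Set.inter_comm, prob_root_MS hρ]

end Spin

end Vale.Agent.P154B7
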